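import Mathlib
import Vale.Agent.Lib.P328.RP.Defs
import Vale.Agent.Lib.P328.RP.ThreeProj

/-!
P328: dual criteria for the three-projection inequality on an abstract finite type.

* `ProjDual.threeProj_of_sum` : the three-projection inequality for `κ 0`, `κ 1`, `κ 2` follows
  if `‖h0 + h1 + h2‖² ≤ 2 (‖h0‖² + ‖h1‖² + ‖h2‖²)` for all functions `h i` of `κ i` with zero
  sum.
* `ProjDual.threeProj_of_pair` : it follows if
  `‖E[h1 + h2 | κ 0]‖² ≤ ‖h1 - h2‖²` for all functions `h1` of `κ 1` and `h2` of `κ 2` with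
  zero sum.
-/

namespace Vale.Agent.Lib.P328.RP

open Finset
open Vale.Agent.Lib.P335.Bip

namespace ProjDual

theorem ip_const_right {Ω : Type*} [Fintype Ω] (f : Ω → ℝ) (m : ℝ) :
    ip f (fun _ => m) = m * ∑ x, f x := by
  unfold ip
  rw [Finset.mul_sum]
  exact Finset.sum_congr rfl (fun x _ => mul_comm _ _)

theorem ip_const_const {Ω : Type*} [Fintype Ω] (m : ℝ) :
    ip (fun _ : Ω => m) (fun _ : Ω => m) = (Fintype.card Ω : ℝ) * (m * m) := by
  unfold ip
  rw [Finset.sum_const, Finset.card_univ, nsmul_eq_mul]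

/-- a real-number step: `S² ≤ V * (2 S)` with `V ≥ 0` gives `S ≤ 2 V` -/
theorem real_step {S V W : ℝ} (hV : 0 ≤ V) (h1 : S ^ 2 ≤ V * W) (h2 : W ≤ 2 * S) :
    S ≤ 2 * V := by
  by_contra hcon
  push Not at hcon
  have hS : 0 < S := by linarith
  have h3 : V * W ≤ V * (2 * S) := mul_le_mul_of_nonneg_left h2 hV
  nlinarith

variable {Ω K : Type*} [Fintype Ω] [DecidableEq K]

/-- **Dual criterion, three functions.** -/
theorem threeProj_of_sum (κ : Fin 3 → Ω → K)
    (h : ∀ h0 h1 h2 : Ω → ℝ,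
      (∀ x y, κ 0 x = κ 0 y → h0 x = h0 y) → (∀ x y, κ 1 x = κ 1 y → h1 x = h1 y) →
      (∀ x y, κ 2 x = κ 2 y → h2 x = h2 y) →
      ∑ x, h0 x = 0 → ∑ x, h1 x = 0 → ∑ x, h2 x = 0 →
      ip (h0 + h1 + h2) (h0 + h1 + h2) ≤ 2 * (ip h0 h0 + ip h1 h1 + ip h2 h2)) :
    ThreeProj κ := by
  intro g
  rcases isEmpty_or_nonempty Ω with hE | hN
  · have h0 : ∀ u v : Ω → ℝ, ip u v = 0 := by
      intro u v
      unfold ip
      exact Finset.sum_of_isEmpty _
    have hs : ∑ x, g x = 0 := Finset.sum_of_isEmpty _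
    rw [Finset.sum_congr rfl (fun i _ => h0 g (cexp (κ i) g)), h0 g g, hs]
    simp
  · set N : ℝ := (Fintype.card Ω : ℝ) with hNdef
    have hNpos : 0 < N := by
      rw [hNdef]
      exact_mod_cast Fintype.card_pos
    set s : ℝ := ∑ x, g x with hsdef
    set m : ℝ := s / N with hmdef
    have hmN : m * N = s := by
      rw [hmdef]
      field_simp
    set g0 : Ω → ℝ := fun _ => m with hg0
    set hh : Fin 3 → Ω → ℝ := fun i => cexp (κ i) g - g0 with hhdef
    have hmeas : ∀ i x y, κ i x = κ i y → hh i x = hh i y := by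
      intro i x y hxy
      show cexp (κ i) g x - g0 x = cexp (κ i) g y - g0 y
      rw [cexp_congr (κ i) hxy g]
    have hzero : ∀ i, ∑ x, hh i x = 0 := by
      intro i
      show ∑ x, (cexp (κ i) g x - g0 x) = 0
      rw [Finset.sum_sub_distrib, sum_cexp, Finset.sum_const, Finset.card_univ, nsmul_eq_mul,
        mul_comm, hmN]
      exact sub_self _
    have e1 : ∀ i, ip (cexp (κ i) g) g0 = m * s := by
      intro i
      rw [ip_const_right, sum_cexp]
    have e2 : ip g g0 = m * s := ip_const_right g m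
    have e3 : ip g0 g0 = m * s := by
      rw [ip_const_const, ← hNdef, ← hmN]
      ring
    have hS : ∀ i, ip (hh i) (hh i) = ip g (cexp (κ i) g) - m * s := by
      intro i
      show ip (cexp (κ i) g - g0) (cexp (κ i) g - g0) = _
      rw [ip_sub_left, ip_sub_right, ip_sub_right, ← ip_cexp_self, ip_comm g0 (cexp (κ i) g),
        e1, e3]
      ring
    have hS' : ∀ i, ip (g - g0) (hh i) = ip g (cexp (κ i) g) - m * s := by
      intro i
      show ip (g - g0) (cexp (κ i) g - g0) = _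
      rw [ip_sub_left, ip_sub_right, ip_sub_right, ip_comm g0 (cexp (κ i) g), e1, e2, e3]
      ring
    have hV : ip (g - g0) (g - g0) = ip g g - m * s := by
      rw [ip_sub_left, ip_sub_right, ip_sub_right, ip_comm g0 g, e2, e3]
      ring
    have hmain := h (hh 0) (hh 1) (hh 2) (hmeas 0) (hmeas 1) (hmeas 2) (hzero 0) (hzero 1)
      (hzero 2)
    have hcs := ip_cauchy_schwarz (g - g0) (hh 0 + hh 1 + hh 2)
    have hsplit : ip (g - g0) (hh 0 + hh 1 + hh 2)
        = ip (hh 0) (hh 0) + ip (hh 1) (hh 1) + ip (hh 2) (hh 2) := by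
      rw [ip_add_right, ip_add_right, hS' 0, hS' 1, hS' 2, hS 0, hS 1, hS 2]
    rw [hsplit] at hcs
    have hfin := real_step (ip_self_nonneg (g - g0)) hcs hmain
    rw [hS 0, hS 1, hS 2, hV] at hfin
    rw [Fin.sum_univ_three]
    have hms : m * s = s ^ 2 / N := by
      rw [hmdef]
      ring
    rw [← hms]
    linarith

/-- **Dual criterion, two functions.** -/
theorem threeProj_of_pair (κ : Fin 3 → Ω → K)
    (h : ∀ h1 h2 : Ω → ℝ,
      (∀ x y, κ 1 x = κ 1 y → h1 x = h1 y) → (∀ x y, κ 2 x = κ 2 y → h2 x = h2 y) →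
      ∑ x, h1 x = 0 → ∑ x, h2 x = 0 →
      ip (cexp (κ 0) (h1 + h2)) (cexp (κ 0) (h1 + h2)) ≤ ip (h1 - h2) (h1 - h2)) :
    ThreeProj κ := by
  apply threeProj_of_sum
  intro h0 h1 h2 m0 m1 m2 _ z1 z2
  have hkey := h h1 h2 m1 m2 z1 z2
  set w : Ω → ℝ := cexp (κ 0) (h1 + h2) with hw
  have hcross : ip h0 (h1 + h2) = ip h0 w := by
    rw [hw, cexp_symm, cexp_of_factor (κ 0) m0]
  have hsq : 0 ≤ ip (h0 - w) (h0 - w) := ip_self_nonneg _
  rw [ip_sub_left, ip_sub_right, ip_sub_right, ip_comm w h0] at hsq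
  have hexp : ip (h0 + h1 + h2) (h0 + h1 + h2)
      = ip h0 h0 + 2 * ip h0 (h1 + h2) + ip (h1 + h2) (h1 + h2) := by
    rw [add_assoc, ip_add_left, ip_add_right h0 h0 (h1 + h2),
      ip_add_right (h1 + h2) h0 (h1 + h2), ip_comm (h1 + h2) h0]
    ring
  have hplus : ip (h1 + h2) (h1 + h2) = ip h1 h1 + 2 * ip h1 h2 + ip h2 h2 := by
    rw [ip_add_left, ip_add_right, ip_add_right, ip_comm h2 h1]
    ring
  have hminus : ip (h1 - h2) (h1 - h2) = ip h1 h1 - 2 * ip h1 h2 + ip h2 h2 := by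
    rw [ip_sub_left, ip_sub_right, ip_sub_right, ip_comm h2 h1]
    ring
  rw [hexp, hcross, hplus]
  rw [hminus] at hkey
  linarith

end ProjDual

end Vale.Agent.Lib.P328.RP
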