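import Mathlib
import Vale.Agent.Lib.P328.RP.Defs
import Vale.Agent.Lib.P328.RP.ThreeProj
import Vale.Agent.Lib.P328.helper55.ProjDual

/-!
P328: tables with four rows whose last two rows have sum one.

The three conditional expectations are: given the first two rows (resampling the two unit
rows), given the first unit row, given the second unit row.  Given the first two rows there are
at most two tables, exchanged by the swap `tau` of the two unit rows.

* `FourRow.ucol i hr x` : the column of the unit of a row `i` with sum one.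
* `FourRow.tau` : the swap of the rows `2` and `3`.
* `FourRow.eq_or_eq_tau` : two tables with the same rows `0` and `1` are equal or swapped.
* `FourRow.R_rows01` : resampling the two unit rows is averaging over the swap.
* `FourRow.threeProj_fourRow` : the three-projection inequality for the three conditional
  expectations, from the negative correlation of the two unit columns:
  `∑ over tables of σ (J₂) * σ (J₃) ≤ 0` whenever `∑ over tables of σ (J₂) = 0`.
* `FourRow.fourRow_T2` : the same in terms of the resampling operators `R`.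
-/

namespace Vale.Agent.Lib.P328.RP

open Finset
open Vale.Agent.Lib.P335.Bip

namespace FourRow

variable {n : ℕ} {r : Fin 4 → ℕ} {c : Fin n → ℕ}

/-- a row with sum one has exactly one nonzero entry, equal to one -/
theorem exists_unit (i : Fin 4) (hr : r i = 1) (x : CT 4 n r c) :
    ∃ j, x.1 i j = 1 ∧ ∀ l, l ≠ j → x.1 i l = 0 := by
  have hs : ∑ j, x.1 i j = 1 := by rw [x.2.1 i, hr]
  have hex : ∃ j, x.1 i j ≠ 0 := by
    by_contra hcon
    push Not at hcon
    rw [Finset.sum_eq_zero (fun j _ => hcon j)] at hs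
    exact absurd hs (by norm_num)
  obtain ⟨j, hj⟩ := hex
  have h1 : x.1 i j + ∑ l ∈ univ.erase j, x.1 i l = ∑ l, x.1 i l :=
    Finset.add_sum_erase univ (fun l => x.1 i l) (Finset.mem_univ j)
  rw [hs] at h1
  have h2 : ∑ l ∈ univ.erase j, x.1 i l = 0 := by omega
  refine ⟨j, by omega, fun l hl => ?_⟩
  exact (Finset.sum_eq_zero_iff.mp h2) l (Finset.mem_erase.mpr ⟨hl, Finset.mem_univ l⟩)

/-- the column of the unit of a row with sum one -/
noncomputable def ucol (i : Fin 4) (hr : r i = 1) (x : CT 4 n r c) : Fin n :=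
  (exists_unit i hr x).choose

theorem ucol_one (i : Fin 4) (hr : r i = 1) (x : CT 4 n r c) : x.1 i (ucol i hr x) = 1 :=
  (exists_unit i hr x).choose_spec.1

theorem ucol_zero (i : Fin 4) (hr : r i = 1) (x : CT 4 n r c) {l : Fin n}
    (hl : l ≠ ucol i hr x) : x.1 i l = 0 :=
  (exists_unit i hr x).choose_spec.2 l hl

theorem row_apply (i : Fin 4) (hr : r i = 1) (x : CT 4 n r c) (l : Fin n) :
    x.1 i l = if l = ucol i hr x then 1 else 0 := by
  by_cases h : l = ucol i hr x
  · rw [if_pos h, h]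
    exact ucol_one i hr x
  · rw [if_neg h]
    exact ucol_zero i hr x h

theorem ucol_eq_of (i : Fin 4) (hr : r i = 1) (x : CT 4 n r c) {j : Fin n}
    (hj : x.1 i j ≠ 0) : ucol i hr x = j := by
  by_contra hne
  exact hj (ucol_zero i hr x (fun h => hne h.symm))

/-- a unit row is determined by its unit column -/
theorem row_eq_of_ucol (i i' : Fin 4) (hr : r i = 1) (hr' : r i' = 1) (x y : CT 4 n r c)
    (h : ucol i hr x = ucol i' hr' y) : x.1 i = y.1 i' := by
  funext l
  rw [row_apply i hr x l, row_apply i' hr' y l, h]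

theorem ucol_congr (i i' : Fin 4) (hr : r i = 1) (hr' : r i' = 1) {x y : CT 4 n r c}
    (h : x.1 i = y.1 i') : ucol i hr x = ucol i' hr' y := by
  apply ucol_eq_of i hr x
  rw [h, ucol_one i' hr' y]
  norm_num

/-- the four entries of a column add up to the column sum -/
theorem col4 (x : CT 4 n r c) (j : Fin n) :
    x.1 0 j + x.1 1 j + x.1 2 j + x.1 3 j = c j := by
  rw [← x.2.2 j, Fin.sum_univ_four]

theorem fin4_cases : ∀ i : Fin 4, i = 0 ∨ i = 1 ∨ i = 2 ∨ i = 3 := by
  decide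

/-- the transposition of `2` and `3` -/
def sw (i : Fin 4) : Fin 4 := if i = 2 then 3 else if i = 3 then 2 else i

theorem sw_sw : ∀ i : Fin 4, sw (sw i) = i := by
  decide

/-- the transposition of `2` and `3` as a bijection -/
def swEquiv : Fin 4 ≃ Fin 4 := ⟨sw, sw, sw_sw, sw_sw⟩

theorem r_sw (h2 : r 2 = 1) (h3 : r 3 = 1) (i : Fin 4) : r (sw i) = r i := by
  rcases fin4_cases i with rfl | rfl | rfl | rfl
  · rfl
  · rfl
  · show r 3 = r 2
    rw [h2, h3]
  · show r 2 = r 3
    rw [h2, h3]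

/-- the swap of the two unit rows -/
def tau (h2 : r 2 = 1) (h3 : r 3 = 1) (x : CT 4 n r c) : CT 4 n r c :=
  ⟨fun i => x.1 (sw i), by
    constructor
    · intro i
      rw [x.2.1 (sw i), r_sw h2 h3 i]
    · intro j
      exact (Equiv.sum_comp swEquiv (fun i => x.1 i j)).trans (x.2.2 j)⟩

theorem tau_row (h2 : r 2 = 1) (h3 : r 3 = 1) (x : CT 4 n r c) (i : Fin 4) :
    (tau h2 h3 x).1 i = x.1 (sw i) := rfl

theorem tau_tau (h2 : r 2 = 1) (h3 : r 3 = 1) (x : CT 4 n r c) :
    tau h2 h3 (tau h2 h3 x) = x := by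
  apply Subtype.ext
  funext i
  rw [tau_row, tau_row, sw_sw]

/-- the swap as a bijection of the tables -/
def tauEquiv (h2 : r 2 = 1) (h3 : r 3 = 1) : CT 4 n r c ≃ CT 4 n r c :=
  ⟨tau h2 h3, tau h2 h3, tau_tau h2 h3, tau_tau h2 h3⟩

theorem ucol2_tau (h2 : r 2 = 1) (h3 : r 3 = 1) (x : CT 4 n r c) :
    ucol 2 h2 (tau h2 h3 x) = ucol 3 h3 x :=
  ucol_congr 2 3 h2 h3 (tau_row h2 h3 x 2)

theorem ucol3_tau (h2 : r 2 = 1) (h3 : r 3 = 1) (x : CT 4 n r c) :
    ucol 3 h3 (tau h2 h3 x) = ucol 2 h2 x :=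
  ucol_congr 3 2 h3 h2 (tau_row h2 h3 x 3)

/-- sums over the tables are invariant under the swap -/
theorem sum_tau (h2 : r 2 = 1) (h3 : r 3 = 1) (G : CT 4 n r c → ℝ) :
    ∑ x, G (tau h2 h3 x) = ∑ x, G x :=
  Equiv.sum_comp (tauEquiv h2 h3) G

/-- **Two tables with the same first two rows are equal or swapped.** -/
theorem eq_or_eq_tau (h2 : r 2 = 1) (h3 : r 3 = 1) (x y : CT 4 n r c)
    (h0 : y.1 0 = x.1 0) (h1 : y.1 1 = x.1 1) : y = x ∨ y = tau h2 h3 x := by
  have hkey : ∀ k : Fin n,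
      (if k = ucol 2 h2 x then 1 else 0) + (if k = ucol 3 h3 x then 1 else 0)
        = (if k = ucol 2 h2 y then 1 else 0) + (if k = ucol 3 h3 y then 1 else 0) := by
    intro k
    have hx := col4 x k
    have hy := col4 y k
    rw [row_apply 2 h2 x k, row_apply 3 h3 x k] at hx
    rw [row_apply 2 h2 y k, row_apply 3 h3 y k, congrFun h0 k, congrFun h1 k] at hy
    omega
  have hj := hkey (ucol 2 h2 y)
  rw [if_pos rfl] at hj
  have hl := hkey (ucol 3 h3 y)
  rw [if_pos rfl] at hl
  by_cases hc : ucol 2 h2 y = ucol 2 h2 x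
  · -- the same unit columns
    left
    have hc3 : ucol 3 h3 y = ucol 3 h3 x := by
      by_contra hne
      rw [if_neg hne, hc] at hl
      split_ifs at hl <;> omega
    apply Subtype.ext
    funext i
    rcases fin4_cases i with rfl | rfl | rfl | rfl
    · exact h0
    · exact h1
    · exact row_eq_of_ucol 2 2 h2 h2 y x hc
    · exact row_eq_of_ucol 3 3 h3 h3 y x hc3
  · -- the unit columns are exchanged
    right
    rw [if_neg hc] at hj
    have hc2 : ucol 2 h2 y = ucol 3 h3 x := by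
      by_contra hne
      rw [if_neg hne] at hj
      split_ifs at hj <;> omega
    have hc3 : ucol 3 h3 y = ucol 2 h2 x := by
      by_contra hne
      rw [if_neg hne, hc2] at hl
      split_ifs at hl <;> omega
    apply Subtype.ext
    funext i
    rcases fin4_cases i with rfl | rfl | rfl | rfl
    · exact h0
    · exact h1
    · exact row_eq_of_ucol 2 3 h2 h3 y x hc2
    · exact row_eq_of_ucol 3 2 h3 h2 y x hc3

theorem not_mem_23 : ∀ i : Fin 4, i ∉ ({2, 3} : Finset (Fin 4)) → i = 0 ∨ i = 1 := by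
  decide

theorem mask23_iff (x y : CT 4 n r c) :
    mask ({2, 3} : Finset (Fin 4)) x.1 = mask ({2, 3} : Finset (Fin 4)) y.1
      ↔ x.1 0 = y.1 0 ∧ x.1 1 = y.1 1 := by
  rw [mask_eq_iff]
  constructor
  · intro h
    exact ⟨h 0 (by decide), h 1 (by decide)⟩
  · rintro ⟨h0, h1⟩ i hi
    rcases not_mem_23 i hi with rfl | rfl
    · exact h0
    · exact h1

/-- **Resampling the two unit rows is averaging over the swap.** -/
theorem R_rows01 (h2 : r 2 = 1) (h3 : r 3 = 1) (w : CT 4 n r c → ℝ) (x : CT 4 n r c) :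
    R ({2, 3} : Finset (Fin 4)) w x = (w x + w (tau h2 h3 x)) / 2 := by
  set F : CT 4 n r c → ℝ := fun x => (w x + w (tau h2 h3 x)) / 2 with hF
  have hmeas : ∀ x y : CT 4 n r c,
      mask ({2, 3} : Finset (Fin 4)) x.1 = mask ({2, 3} : Finset (Fin 4)) y.1 → F x = F y := by
    intro x y hxy
    rw [mask23_iff] at hxy
    rcases eq_or_eq_tau h2 h3 x y hxy.1.symm hxy.2.symm with h | h
    · rw [h]
    · rw [h, hF]
      simp only
      rw [tau_tau]
      ring
  have h1 : R ({2, 3} : Finset (Fin 4)) F = F := cexp_of_factor _ hmeas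
  have hFeq : F = (1 / 2 : ℝ) • (w + w ∘ (tauEquiv h2 h3)) := by
    funext x
    simp only [hF, Pi.smul_apply, Pi.add_apply, Function.comp_apply, smul_eq_mul]
    show (w x + w (tau h2 h3 x)) / 2 = 1 / 2 * (w x + w (tau h2 h3 x))
    ring
  have hcomp : R ({2, 3} : Finset (Fin 4)) (w ∘ (tauEquiv h2 h3))
      = R ({2, 3} : Finset (Fin 4)) w ∘ (tauEquiv h2 h3) := by
    apply cexp_comp_equiv
    intro x y
    show mask ({2, 3} : Finset (Fin 4)) (tau h2 h3 x).1
        = mask ({2, 3} : Finset (Fin 4)) (tau h2 h3 y).1 ↔ _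
    rw [mask23_iff, mask23_iff]
    exact Iff.rfl
  have h2' : R ({2, 3} : Finset (Fin 4)) F = R ({2, 3} : Finset (Fin 4)) w := by
    rw [hFeq, map_smul, map_add, hcomp]
    funext x
    simp only [Pi.smul_apply, Pi.add_apply, Function.comp_apply, smul_eq_mul]
    have hx : R ({2, 3} : Finset (Fin 4)) w (tauEquiv h2 h3 x)
        = R ({2, 3} : Finset (Fin 4)) w x := by
      apply R_congr
      intro i hi
      rcases not_mem_23 i hi with rfl | rfl
      · rfl
      · rfl
    rw [hx]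
    ring
  rw [← h2', h1]

/-- a function of a unit row is a function of its unit column -/
theorem exists_of_row (i : Fin 4) (hr : r i = 1) (h : CT 4 n r c → ℝ)
    (hm : ∀ x y : CT 4 n r c, x.1 i = y.1 i → h x = h y) :
    ∃ s : Fin n → ℝ, ∀ x, h x = s (ucol i hr x) := by
  classical
  refine ⟨fun j => if hex : ∃ y : CT 4 n r c, ucol i hr y = j then h hex.choose else 0, ?_⟩
  intro x
  have hex : ∃ y : CT 4 n r c, ucol i hr y = ucol i hr x := ⟨x, rfl⟩
  simp only
  rw [dif_pos hex]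
  apply hm
  exact (row_eq_of_ucol i i hr hr hex.choose x hex.choose_spec).symm

/-- the three row sets whose resamplings are compared -/
def Pset : Fin 3 → Finset (Fin 4) := fun i =>
  if i = 0 then {2, 3} else if i = 1 then {0, 1, 3} else {0, 1, 2}

theorem Pset_zero : Pset 0 = {2, 3} := rfl

theorem Pset_one : Pset 1 = {0, 1, 3} := rfl

theorem Pset_two : Pset 2 = {0, 1, 2} := rfl

theorem row2_of_mask (x y : CT 4 n r c)
    (h : mask ({0, 1, 3} : Finset (Fin 4)) x.1 = mask ({0, 1, 3} : Finset (Fin 4)) y.1) :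
    x.1 2 = y.1 2 := by
  rw [mask_eq_iff] at h
  exact h 2 (by decide)

theorem row3_of_mask (x y : CT 4 n r c)
    (h : mask ({0, 1, 2} : Finset (Fin 4)) x.1 = mask ({0, 1, 2} : Finset (Fin 4)) y.1) :
    x.1 3 = y.1 3 := by
  rw [mask_eq_iff] at h
  exact h 3 (by decide)

theorem mask_of_row2 (x y : CT 4 n r c) (h : x.1 2 = y.1 2) :
    mask ({0, 1, 3} : Finset (Fin 4)) x.1 = mask ({0, 1, 3} : Finset (Fin 4)) y.1 := by
  rw [mask_eq_iff]
  intro i hi
  have h2 : i = 2 := by
    revert i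
    decide
  rw [h2]
  exact h

theorem mask_of_row3 (x y : CT 4 n r c) (h : x.1 3 = y.1 3) :
    mask ({0, 1, 2} : Finset (Fin 4)) x.1 = mask ({0, 1, 2} : Finset (Fin 4)) y.1 := by
  rw [mask_eq_iff]
  intro i hi
  have h3 : i = 3 := by
    revert i
    decide
  rw [h3]
  exact h

/-- **Four rows, two of them units: the three-projection inequality from the negative
correlation of the two unit columns.** -/
theorem threeProj_fourRow (h2 : r 2 = 1) (h3 : r 3 = 1)
    (hNC : ∀ σ : Fin n → ℝ, ∑ x : CT 4 n r c, σ (ucol 2 h2 x) = 0 →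
      ∑ x : CT 4 n r c, σ (ucol 2 h2 x) * σ (ucol 3 h3 x) ≤ 0) :
    ThreeProj (fun (i : Fin 3) (x : CT 4 n r c) => mask (Pset i) x.1) := by
  apply ProjDual.threeProj_of_pair
  intro f1 f2 m1 m2 z1 z2
  obtain ⟨s, hs⟩ := exists_of_row 2 h2 f1
    (fun x y hxy => m1 x y (mask_of_row2 x y hxy))
  obtain ⟨t, ht⟩ := exists_of_row 3 h3 f2
    (fun x y hxy => m2 x y (mask_of_row3 x y hxy))
  -- the conditional expectation given the first two rows
  have hce : cexp (fun x : CT 4 n r c => mask (Pset 0) x.1) (f1 + f2)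
      = fun x => (s (ucol 2 h2 x) + t (ucol 2 h2 x)) / 2
          + (s (ucol 3 h3 x) + t (ucol 3 h3 x)) / 2 := by
    funext x
    have h := R_rows01 h2 h3 (f1 + f2) x
    have h' : cexp (fun x : CT 4 n r c => mask (Pset 0) x.1) (f1 + f2) x
        = ((f1 + f2) x + (f1 + f2) (tau h2 h3 x)) / 2 := h
    rw [h']
    simp only [Pi.add_apply]
    rw [hs x, ht x, hs (tau h2 h3 x), ht (tau h2 h3 x), ucol2_tau, ucol3_tau]
    ring
  rw [hce]
  -- sums
  have hz1 : ∑ x : CT 4 n r c, s (ucol 2 h2 x) = 0 := by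
    rw [← z1]
    exact Finset.sum_congr rfl (fun x _ => (hs x).symm)
  have hz2 : ∑ x : CT 4 n r c, t (ucol 3 h3 x) = 0 := by
    rw [← z2]
    exact Finset.sum_congr rfl (fun x _ => (ht x).symm)
  have hz2' : ∑ x : CT 4 n r c, t (ucol 2 h2 x) = 0 := by
    rw [← sum_tau h2 h3 (fun x => t (ucol 2 h2 x)), ← hz2]
    exact Finset.sum_congr rfl (fun x _ => by rw [ucol2_tau])
  have hσ0 : ∑ x : CT 4 n r c, (fun j => (s j + t j) / 2) (ucol 2 h2 x) = 0 := by
    simp only
    rw [← Finset.sum_div, Finset.sum_add_distrib, hz1, hz2']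
    norm_num
  have hC : ∑ x : CT 4 n r c, (s (ucol 2 h2 x) + t (ucol 2 h2 x)) / 2
      * ((s (ucol 3 h3 x) + t (ucol 3 h3 x)) / 2) ≤ 0 := hNC (fun j => (s j + t j) / 2) hσ0
  -- the right side, symmetrised
  have hsym : ∑ x : CT 4 n r c, (s (ucol 3 h3 x) - t (ucol 2 h2 x)) ^ 2
      = ∑ x : CT 4 n r c, (s (ucol 2 h2 x) - t (ucol 3 h3 x)) ^ 2 := by
    rw [← sum_tau h2 h3 (fun x => (s (ucol 2 h2 x) - t (ucol 3 h3 x)) ^ 2)]
    exact Finset.sum_congr rfl (fun x _ => by rw [ucol2_tau, ucol3_tau])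
  have hR : ip (f1 - f2) (f1 - f2)
      = ∑ x : CT 4 n r c, (s (ucol 2 h2 x) - t (ucol 3 h3 x)) ^ 2 := by
    unfold ip
    refine Finset.sum_congr rfl (fun x _ => ?_)
    simp only [Pi.sub_apply]
    rw [hs x, ht x]
    ring
  have hL : ip (fun x : CT 4 n r c => (s (ucol 2 h2 x) + t (ucol 2 h2 x)) / 2
          + (s (ucol 3 h3 x) + t (ucol 3 h3 x)) / 2)
        (fun x : CT 4 n r c => (s (ucol 2 h2 x) + t (ucol 2 h2 x)) / 2
          + (s (ucol 3 h3 x) + t (ucol 3 h3 x)) / 2)
      = ∑ x : CT 4 n r c, ((s (ucol 2 h2 x) + t (ucol 2 h2 x)) / 2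
          + (s (ucol 3 h3 x) + t (ucol 3 h3 x)) / 2) ^ 2 := by
    unfold ip
    exact Finset.sum_congr rfl (fun x _ => by ring)
  rw [hR, hL]
  -- pointwise identity
  have hpt : ∀ x : CT 4 n r c,
      ((s (ucol 2 h2 x) + t (ucol 2 h2 x)) / 2 + (s (ucol 3 h3 x) + t (ucol 3 h3 x)) / 2) ^ 2
        ≤ 4 * ((s (ucol 2 h2 x) + t (ucol 2 h2 x)) / 2 * ((s (ucol 3 h3 x) + t (ucol 3 h3 x)) / 2))
          + ((s (ucol 2 h2 x) - t (ucol 3 h3 x)) ^ 2
            + (s (ucol 3 h3 x) - t (ucol 2 h2 x)) ^ 2) / 2 := by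
    intro x
    nlinarith [sq_nonneg (s (ucol 2 h2 x) - t (ucol 2 h2 x) + s (ucol 3 h3 x) - t (ucol 3 h3 x))]
  have hsum := Finset.sum_le_sum (fun x (_ : x ∈ (univ : Finset (CT 4 n r c))) => hpt x)
  rw [Finset.sum_add_distrib, ← Finset.mul_sum, ← Finset.sum_div, Finset.sum_add_distrib,
    hsym] at hsum
  linarith

/-- The quadratic form of the global average. -/
theorem ip_R_univ4 (g : CT 4 n r c → ℝ) :
    ip g (R univ g) = (∑ x, g x) ^ 2 / (Fintype.card (CT 4 n r c) : ℝ) := by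
  unfold ip
  rw [Finset.sum_congr rfl (fun x _ => by rw [R_univ_apply]), ← Finset.sum_mul]
  ring

/-- **The triple inequality for the two fat rows (as one site) and two unit rows**, from the
negative correlation of the two unit columns. -/
theorem fourRow_T2 (h2 : r 2 = 1) (h3 : r 3 = 1)
    (hNC : ∀ σ : Fin n → ℝ, ∑ x : CT 4 n r c, σ (ucol 2 h2 x) = 0 →
      ∑ x : CT 4 n r c, σ (ucol 2 h2 x) * σ (ucol 3 h3 x) ≤ 0)
    (g : CT 4 n r c → ℝ) :
    ip g (R ({2, 3} : Finset (Fin 4)) g) + ip g (R ({0, 1, 3} : Finset (Fin 4)) g)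
        + ip g (R ({0, 1, 2} : Finset (Fin 4)) g)
      ≤ 2 * ip g g + ip g (R univ g) := by
  have h := threeProj_fourRow h2 h3 hNC g
  rw [Fin.sum_univ_three, ← ip_R_univ4] at h
  exact h

end FourRow

end Vale.Agent.Lib.P328.RP
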