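import Mathlib
import Vale.Agent.Lib.P328.RP.Defs
import Vale.Agent.Lib.P328.helper55.FourRow

/-!
P328: from the rank-one bound for the joint counts of the two unit columns to their negative
correlation.

* `NegCorrAlg.negcorr_of_star` : if a symmetric matrix `M` with nonnegative entries satisfies
  `G * sᵀ M s ≤ (s · g) ^ 2` for all `s` (with `g ≥ 0`, `G ≥ 0`, and `M = 0` when `G = 0`),
  then `σᵀ M σ ≤ 0` for every `σ` with `σᵀ M 1 = 0`.
* `NegCorrAlg.sum_pair` : a sum over a finite type of a function of two labels is the sum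
  over the pairs of labels weighted by the joint counts.
* `FourRow.cnt`, `FourRow.cnt_symm` : the joint counts of the two unit columns of the tables
  with four rows, and their symmetry.
* `FourRow.hNC_of_star` : the negative correlation of the two unit columns from the rank-one
  bound for `FourRow.cnt`.
* `FourRow.fourRow_T2_of_star` : the four-row inequality from the rank-one bound.
-/

namespace Vale.Agent.Lib.P328.RP

open Finset
open Vale.Agent.Lib.P335.Bip

namespace NegCorrAlg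

/-- **One positive direction gives negative correlation.** -/
theorem negcorr_of_star {n : ℕ} (M : Fin n → Fin n → ℝ) (g : Fin n → ℝ) (G : ℝ)
    (hsym : ∀ j l, M j l = M l j) (hM : ∀ j l, 0 ≤ M j l) (hg : ∀ j, 0 ≤ g j)
    (hG0 : G = 0 → ∀ j l, M j l = 0) (hG : 0 ≤ G)
    (hstar : ∀ s : Fin n → ℝ, G * ∑ j, ∑ l, s j * s l * M j l ≤ (∑ j, s j * g j) ^ 2)
    (σ : Fin n → ℝ) (hσ : ∑ j, ∑ l, σ j * M j l = 0) :
    ∑ j, ∑ l, σ j * σ l * M j l ≤ 0 := by
  rcases hG.eq_or_lt with hG' | hG'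
  · have hz := hG0 hG'.symm
    apply le_of_eq
    refine Finset.sum_eq_zero (fun j _ => Finset.sum_eq_zero (fun l _ => ?_))
    rw [hz j l, mul_zero]
  set a : ℝ := ∑ j, σ j * g j with ha
  set b : ℝ := ∑ j, g j with hb
  set T : ℝ := ∑ j, ∑ l, M j l with hT
  set Q : ℝ := ∑ j, ∑ l, σ j * σ l * M j l with hQ
  have hT0 : 0 ≤ T := Finset.sum_nonneg (fun j _ => Finset.sum_nonneg (fun l _ => hM j l))
  have hσ' : ∑ j, ∑ l, σ l * M j l = 0 := by
    rw [Finset.sum_comm, ← hσ]
    exact Finset.sum_congr rfl (fun j _ => Finset.sum_congr rfl (fun l _ => by rw [hsym l j]))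
  by_cases hb0 : b = 0
  · -- all `g j` vanish
    have hgz : ∀ j, g j = 0 := by
      intro j
      exact (Finset.sum_eq_zero_iff_of_nonneg (fun j _ => hg j)).mp hb0 j (Finset.mem_univ j)
    have ha0 : a = 0 := by
      rw [ha]
      exact Finset.sum_eq_zero (fun j _ => by rw [hgz j, mul_zero])
    have h1 := hstar σ
    rw [← ha, ha0] at h1
    have h2 : G * Q ≤ 0 := by
      have : (0 : ℝ) ^ 2 = 0 := by norm_num
      rw [this] at h1
      exact h1
    by_contra hcon
    push Not at hcon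
    have := mul_pos hG' hcon
    linarith
  · -- the direction `a - b σ`
    have hdir : ∑ j, (a - b * σ j) * g j = 0 := by
      have h1 : ∑ j, (a - b * σ j) * g j = a * ∑ j, g j - b * ∑ j, σ j * g j := by
        rw [Finset.mul_sum, Finset.mul_sum, ← Finset.sum_sub_distrib]
        exact Finset.sum_congr rfl (fun j _ => by ring)
      rw [h1, ← ha, ← hb]
      ring
    have h1 := hstar (fun j => a - b * σ j)
    rw [hdir] at h1
    have hexp : ∑ j, ∑ l, (a - b * σ j) * (a - b * σ l) * M j l = a ^ 2 * T + b ^ 2 * Q := by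
      have h2 : ∑ j, ∑ l, (a - b * σ j) * (a - b * σ l) * M j l
          = ∑ j, ∑ l, (a ^ 2 * M j l - a * b * (σ l * M j l) - a * b * (σ j * M j l)
              + b ^ 2 * (σ j * σ l * M j l)) :=
        Finset.sum_congr rfl (fun j _ => Finset.sum_congr rfl (fun l _ => by ring))
      have h3 : ∑ j, ∑ l, (a ^ 2 * M j l - a * b * (σ l * M j l) - a * b * (σ j * M j l)
              + b ^ 2 * (σ j * σ l * M j l))
          = a ^ 2 * T - a * b * (∑ j, ∑ l, σ l * M j l) - a * b * (∑ j, ∑ l, σ j * M j l)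
              + b ^ 2 * Q := by
        simp only [hT, hQ, Finset.sum_add_distrib, Finset.sum_sub_distrib, Finset.mul_sum]
      rw [h2, h3, hσ, hσ']
      ring
    rw [hexp] at h1
    have h4 : a ^ 2 * T + b ^ 2 * Q ≤ 0 := by
      by_contra hcon
      push Not at hcon
      have := mul_pos hG' hcon
      have h5 : (0 : ℝ) ^ 2 = 0 := by norm_num
      rw [h5] at h1
      linarith
    have hb2 : 0 < b ^ 2 := by positivity
    have ha2 : 0 ≤ a ^ 2 * T := mul_nonneg (sq_nonneg a) hT0
    by_contra hcon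
    push Not at hcon
    have := mul_pos hb2 hcon
    linarith

/-- A sum of a function of two labels is the sum over the pairs of labels weighted by the
joint counts. -/
theorem sum_pair {Ω : Type*} [Fintype Ω] {n : ℕ} (A B : Ω → Fin n) (F : Fin n → Fin n → ℝ) :
    ∑ x, F (A x) (B x)
      = ∑ j, ∑ l, F j l * ((univ.filter (fun x : Ω => A x = j ∧ B x = l)).card : ℝ) := by
  have h1 : ∀ j l : Fin n,
      F j l * ((univ.filter (fun x : Ω => A x = j ∧ B x = l)).card : ℝ)
        = ∑ x, if A x = j ∧ B x = l then F j l else 0 := by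
    intro j l
    rw [← Finset.sum_filter, Finset.sum_const, nsmul_eq_mul, mul_comm]
  rw [Finset.sum_congr rfl (fun j _ => Finset.sum_congr rfl (fun l _ => h1 j l))]
  rw [Finset.sum_congr rfl (fun j _ => Finset.sum_comm)]
  rw [Finset.sum_comm]
  refine Finset.sum_congr rfl (fun x _ => ?_)
  rw [Finset.sum_eq_single (A x)]
  · rw [Finset.sum_eq_single (B x)]
    · rw [if_pos ⟨rfl, rfl⟩]
    · intro l _ hl
      rw [if_neg (fun h => hl h.2.symm)]
    · intro h
      exact absurd (Finset.mem_univ _) h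
  · intro j _ hj
    refine Finset.sum_eq_zero (fun l _ => ?_)
    rw [if_neg (fun h => hj h.1.symm)]
  · intro h
    exact absurd (Finset.mem_univ _) h

end NegCorrAlg

namespace FourRow

variable {n : ℕ} {r : Fin 4 → ℕ} {c : Fin n → ℕ}

/-- the number of tables whose unit rows `2` and `3` have their units in the columns `j`
and `l` -/
noncomputable def cnt (h2 : r 2 = 1) (h3 : r 3 = 1) (j l : Fin n) : ℝ :=
  ((univ.filter (fun x : CT 4 n r c => ucol 2 h2 x = j ∧ ucol 3 h3 x = l)).card : ℝ)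

theorem cnt_nonneg (h2 : r 2 = 1) (h3 : r 3 = 1) (j l : Fin n) :
    0 ≤ cnt (c := c) h2 h3 j l := by
  unfold cnt
  positivity

/-- the joint counts are symmetric -/
theorem cnt_symm (h2 : r 2 = 1) (h3 : r 3 = 1) (j l : Fin n) :
    cnt (c := c) h2 h3 j l = cnt (c := c) h2 h3 l j := by
  unfold cnt
  congr 1
  refine Finset.card_bij' (fun x _ => tau h2 h3 x) (fun x _ => tau h2 h3 x) ?_ ?_ ?_ ?_
  · intro x hx
    rw [Finset.mem_filter] at hx ⊢
    refine ⟨Finset.mem_univ _, ?_, ?_⟩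
    · rw [ucol2_tau]
      exact hx.2.2
    · rw [ucol3_tau]
      exact hx.2.1
  · intro x hx
    rw [Finset.mem_filter] at hx ⊢
    refine ⟨Finset.mem_univ _, ?_, ?_⟩
    · rw [ucol2_tau]
      exact hx.2.2
    · rw [ucol3_tau]
      exact hx.2.1
  · intro x _
    exact tau_tau h2 h3 x
  · intro x _
    exact tau_tau h2 h3 x

/-- **Negative correlation of the two unit columns from the rank-one bound** for the joint
counts. -/
theorem hNC_of_star (h2 : r 2 = 1) (h3 : r 3 = 1) (g : Fin n → ℝ) (G : ℝ)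
    (hg : ∀ j, 0 ≤ g j) (hG : 0 ≤ G)
    (hG0 : G = 0 → ∀ j l, cnt (c := c) h2 h3 j l = 0)
    (hstar : ∀ s : Fin n → ℝ,
      G * ∑ j, ∑ l, s j * s l * cnt (c := c) h2 h3 j l ≤ (∑ j, s j * g j) ^ 2)
    (σ : Fin n → ℝ) (hσ : ∑ x : CT 4 n r c, σ (ucol 2 h2 x) = 0) :
    ∑ x : CT 4 n r c, σ (ucol 2 h2 x) * σ (ucol 3 h3 x) ≤ 0 := by
  have e1 := NegCorrAlg.sum_pair (fun x : CT 4 n r c => ucol 2 h2 x)
    (fun x : CT 4 n r c => ucol 3 h3 x) (fun j _ => σ j)
  have e2 := NegCorrAlg.sum_pair (fun x : CT 4 n r c => ucol 2 h2 x)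
    (fun x : CT 4 n r c => ucol 3 h3 x) (fun j l => σ j * σ l)
  rw [e2]
  rw [e1] at hσ
  exact NegCorrAlg.negcorr_of_star (fun j l => cnt (c := c) h2 h3 j l) g G
    (cnt_symm h2 h3) (cnt_nonneg h2 h3) hg hG0 hG hstar σ hσ

/-- **The four-row inequality from the rank-one bound** for the joint counts of the two unit
columns. -/
theorem fourRow_T2_of_star (h2 : r 2 = 1) (h3 : r 3 = 1) (g : Fin n → ℝ) (G : ℝ)
    (hg : ∀ j, 0 ≤ g j) (hG : 0 ≤ G)
    (hG0 : G = 0 → ∀ j l, cnt (c := c) h2 h3 j l = 0)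
    (hstar : ∀ s : Fin n → ℝ,
      G * ∑ j, ∑ l, s j * s l * cnt (c := c) h2 h3 j l ≤ (∑ j, s j * g j) ^ 2)
    (f : CT 4 n r c → ℝ) :
    ip f (R ({2, 3} : Finset (Fin 4)) f) + ip f (R ({0, 1, 3} : Finset (Fin 4)) f)
        + ip f (R ({0, 1, 2} : Finset (Fin 4)) f)
      ≤ 2 * ip f f + ip f (R univ f) :=
  fourRow_T2 h2 h3 (hNC_of_star h2 h3 g G hg hG hG0 hstar) f

end FourRow

end Vale.Agent.Lib.P328.RP
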