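import Mathlib
import Vale.Agent.Lib.P328.RP.Defs
import Vale.Agent.Lib.P328.RP.ThreeProj
import Vale.Agent.Lib.P328.helper85.BlockTriple
import Vale.Agent.Lib.P328.helper55.NegCorrAlg

/-!
P328: two rows with sum at most one in a table with any number of rows.

For `m × n` contingency tables and two distinct rows `a`, `b` with row sums at most one (all
other rows and all column sums arbitrary), with the rows other than `a`, `b` taken as one
block: the conditional expectations given row `b`, given row `a` and given the block add up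
to at most twice the identity plus the global average, as quadratic forms under the uniform
measure.  The input is the rank-one bound `NCq` for the numbers `Hcount r c j l` of tables
with row sums `r` whose column sums are `c` minus a unit in column `j` and a unit in
column `l`.

* `UnitRows.Hcount`, `UnitRows.NCq` : the counts and the rank-one bound.
* `UnitRows.ucol` : the column of the unit of a row with sum one.
* `UnitRows.cnt_eq_Hcount` : the joint counts of the unit columns of two unit rows are the
  counts `Hcount` for the remaining rows.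
* `UnitRows.negCorr` : negative correlation of two unit rows.
* `UnitRows.block_triple` : the block inequality.
-/

namespace Vale.Agent.Lib.P328.RP

open Finset
open Vale.Agent.Lib.P335.Bip

namespace UnitRows

/-- The number of `q × n` tables with row sums `r` whose column sums are `c` minus a unit
in column `j` and a unit in column `l`. -/
noncomputable def Hcount {q n : ℕ} (r : Fin q → ℕ) (c : Fin n → ℕ) (j l : Fin n) : ℝ :=
  (Nat.card {k : Fin q → Fin n → ℕ // (∀ i, ∑ j', k i j' = r i) ∧
      ∀ j', (∑ i, k i j') + (if j' = j then 1 else 0) + (if j' = l then 1 else 0) = c j'} : ℝ)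

theorem Hcount_nonneg {q n : ℕ} (r : Fin q → ℕ) (c : Fin n → ℕ) (j l : Fin n) :
    0 ≤ Hcount r c j l := by
  unfold Hcount
  positivity

/-- The rank-one bound for the counts `Hcount`: the matrix `Hcount r c` has at most one
positive direction. -/
def NCq : Prop :=
  ∀ (q n : ℕ) (r : Fin q → ℕ) (c : Fin n → ℕ) (v : Fin n → ℝ),
    (∑ j, ∑ l, v j * v l * Hcount r c j l) * (∑ j, ∑ l, Hcount r c j l)
      ≤ (∑ j, ∑ l, v j * Hcount r c j l) ^ 2

section tables

variable {m n : ℕ} {r : Fin m → ℕ} {c : Fin n → ℕ}

/-- the unit vector of the column `j` -/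
def eu (j : Fin n) : Fin n → ℕ := fun k => if k = j then 1 else 0

theorem sum_eu (j : Fin n) : ∑ k, eu j k = 1 := by
  unfold eu
  rw [Finset.sum_ite_eq' univ j (fun _ => 1), if_pos (Finset.mem_univ j)]

/-- a row with sum one has exactly one nonzero entry, equal to one -/
theorem exists_unit (i : Fin m) (hr : r i = 1) (x : CT m n r c) :
    ∃ j, x.1 i j = 1 ∧ ∀ l, l ≠ j → x.1 i l = 0 := by
  have hs : ∑ j, x.1 i j = 1 := by rw [x.2.1 i, hr]
  have hex : ∃ j, x.1 i j ≠ 0 := by
    by_contra hcon
    push Not at hcon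
    rw [Finset.sum_eq_zero (fun j _ => hcon j)] at hs
    exact absurd hs (by norm_num)
  obtain ⟨j, hj⟩ := hex
  have h1 : x.1 i j + ∑ l ∈ univ.erase j, x.1 i l = ∑ l, x.1 i l :=
    Finset.add_sum_erase univ (fun l => x.1 i l) (Finset.mem_univ j)
  rw [hs] at h1
  have h2 : ∑ l ∈ univ.erase j, x.1 i l = 0 := by omega
  refine ⟨j, by omega, fun l hl => ?_⟩
  exact (Finset.sum_eq_zero_iff.mp h2) l (Finset.mem_erase.mpr ⟨hl, Finset.mem_univ l⟩)

/-- the column of the unit of a row with sum one -/
noncomputable def ucol (i : Fin m) (hr : r i = 1) (x : CT m n r c) : Fin n :=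
  (exists_unit i hr x).choose

theorem ucol_one (i : Fin m) (hr : r i = 1) (x : CT m n r c) : x.1 i (ucol i hr x) = 1 :=
  (exists_unit i hr x).choose_spec.1

theorem ucol_zero (i : Fin m) (hr : r i = 1) (x : CT m n r c) {l : Fin n}
    (hl : l ≠ ucol i hr x) : x.1 i l = 0 :=
  (exists_unit i hr x).choose_spec.2 l hl

theorem row_apply (i : Fin m) (hr : r i = 1) (x : CT m n r c) (l : Fin n) :
    x.1 i l = if l = ucol i hr x then 1 else 0 := by
  by_cases h : l = ucol i hr x
  · rw [if_pos h, h]
    exact ucol_one i hr x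
  · rw [if_neg h]
    exact ucol_zero i hr x h

/-- a unit row is the unit vector of its unit column -/
theorem row_eq_eu (i : Fin m) (hr : r i = 1) (x : CT m n r c) :
    x.1 i = eu (ucol i hr x) := by
  funext l
  exact row_apply i hr x l

theorem ucol_eq_of (i : Fin m) (hr : r i = 1) (x : CT m n r c) {j : Fin n}
    (hj : x.1 i j ≠ 0) : ucol i hr x = j := by
  by_contra hne
  exact hj (ucol_zero i hr x (fun h => hne h.symm))

theorem ucol_eq_of_row (i : Fin m) (hr : r i = 1) (x : CT m n r c) {j : Fin n}
    (hj : x.1 i = eu j) : ucol i hr x = j := by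
  apply ucol_eq_of i hr x
  rw [hj]
  unfold eu
  rw [if_pos rfl]
  norm_num

/-- splitting a sum over the rows into two rows and the rest -/
theorem sum_split {a b : Fin m} (hab : a ≠ b) (f : Fin m → ℕ) :
    ∑ i, f i = f a + f b + ∑ i : {i : Fin m // i ≠ a ∧ i ≠ b}, f i.1 := by
  have h1 : f a + ∑ i ∈ univ.erase a, f i = ∑ i, f i :=
    Finset.add_sum_erase univ f (Finset.mem_univ a)
  have hb : b ∈ univ.erase a := Finset.mem_erase.mpr ⟨fun h => hab h.symm, Finset.mem_univ b⟩
  have h2 : f b + ∑ i ∈ (univ.erase a).erase b, f i = ∑ i ∈ univ.erase a, f i :=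
    Finset.add_sum_erase (univ.erase a) f hb
  have h3 : ∑ i ∈ (univ.erase a).erase b, f i = ∑ i : {i : Fin m // i ≠ a ∧ i ≠ b}, f i.1 := by
    apply Finset.sum_subtype
    intro i
    rw [Finset.mem_erase, Finset.mem_erase]
    constructor
    · intro h
      exact ⟨h.2.1, h.1⟩
    · intro h
      exact ⟨h.2, h.1, Finset.mem_univ i⟩
  rw [← h3]
  omega

/-- The tables whose unit rows `a`, `b` have their units in the columns `j`, `l` are the
tables on the remaining rows with the column sums reduced by these two units. -/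
noncomputable def cntEquiv {a b : Fin m} (hab : a ≠ b) (ha : r a = 1) (hb : r b = 1) {q : ℕ}
    (e : {i : Fin m // i ≠ a ∧ i ≠ b} ≃ Fin q) (j l : Fin n) :
    {x : CT m n r c // ucol a ha x = j ∧ ucol b hb x = l} ≃
      {k : Fin q → Fin n → ℕ // (∀ t, ∑ j', k t j' = r (e.symm t).1) ∧
        ∀ j', (∑ t, k t j') + (if j' = j then 1 else 0) + (if j' = l then 1 else 0) = c j'} where
  toFun x := ⟨fun t => x.1.1 (e.symm t).1, by
    constructor
    · intro t
      exact x.1.2.1 (e.symm t).1
    · intro j'
      have h1 : ∑ i, x.1.1 i j' = x.1.1 a j' + x.1.1 b j'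
          + ∑ i : {i : Fin m // i ≠ a ∧ i ≠ b}, x.1.1 i.1 j' :=
        sum_split hab (fun i => x.1.1 i j')
      have h2 : ∑ t, x.1.1 (e.symm t).1 j' = ∑ i : {i : Fin m // i ≠ a ∧ i ≠ b}, x.1.1 i.1 j' :=
        Equiv.sum_comp e.symm (fun i : {i : Fin m // i ≠ a ∧ i ≠ b} => x.1.1 i.1 j')
      have h3 := x.1.2.2 j'
      have h4 := row_apply a ha x.1 j'
      have h5 := row_apply b hb x.1 j'
      rw [x.2.1] at h4
      rw [x.2.2] at h5
      rw [h2, ← h3, h1, h4, h5]
      omega⟩
  invFun k := ⟨⟨fun i => if h : i ≠ a ∧ i ≠ b then k.1 (e ⟨i, h⟩) else if i = a then eu j else eu l,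
    by
      have hrow : ∀ i, ∑ j', (if h : i ≠ a ∧ i ≠ b then k.1 (e ⟨i, h⟩)
          else if i = a then eu j else eu l) j' = r i := by
        intro i
        by_cases h : i ≠ a ∧ i ≠ b
        · rw [dif_pos h, k.2.1 (e ⟨i, h⟩), Equiv.symm_apply_apply]
        · rw [dif_neg h]
          by_cases hia : i = a
          · rw [if_pos hia, sum_eu, hia, ha]
          · rw [if_neg hia, sum_eu]
            have hib : i = b := by
              by_contra hib
              exact h ⟨hia, hib⟩
            rw [hib, hb]
      have hcol : ∀ j', ∑ i, (if h : i ≠ a ∧ i ≠ b then k.1 (e ⟨i, h⟩)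
          else if i = a then eu j else eu l) j' = c j' := by
        intro j'
        have h1 : ∑ i, (if h : i ≠ a ∧ i ≠ b then k.1 (e ⟨i, h⟩)
              else if i = a then eu j else eu l) j'
            = (if h : a ≠ a ∧ a ≠ b then k.1 (e ⟨a, h⟩)
                else if a = a then eu j else eu l) j'
              + (if h : b ≠ a ∧ b ≠ b then k.1 (e ⟨b, h⟩)
                else if b = a then eu j else eu l) j'
              + ∑ i : {i : Fin m // i ≠ a ∧ i ≠ b},
                (if h : i.1 ≠ a ∧ i.1 ≠ b then k.1 (e ⟨i.1, h⟩)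
                  else if i.1 = a then eu j else eu l) j' :=
          sum_split hab (fun i => (if h : i ≠ a ∧ i ≠ b then k.1 (e ⟨i, h⟩)
            else if i = a then eu j else eu l) j')
        have hA : (if h : a ≠ a ∧ a ≠ b then k.1 (e ⟨a, h⟩)
            else if a = a then eu j else eu l) j' = if j' = j then 1 else 0 := by
          rw [dif_neg (fun h => h.1 rfl), if_pos rfl]
          rfl
        have hB : (if h : b ≠ a ∧ b ≠ b then k.1 (e ⟨b, h⟩)
            else if b = a then eu j else eu l) j' = if j' = l then 1 else 0 := by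
          rw [dif_neg (fun h => h.2 rfl), if_neg (fun h => hab h.symm)]
          rfl
        have hC : ∑ i : {i : Fin m // i ≠ a ∧ i ≠ b},
            (if h : i.1 ≠ a ∧ i.1 ≠ b then k.1 (e ⟨i.1, h⟩)
              else if i.1 = a then eu j else eu l) j' = ∑ t, k.1 t j' := by
          rw [← Equiv.sum_comp e (fun t => k.1 t j')]
          refine Finset.sum_congr rfl (fun i _ => ?_)
          rw [dif_pos i.2]
        rw [h1, hA, hB, hC]
        have := k.2.2 j'
        omega
      exact ⟨hrow, hcol⟩⟩, by
    constructor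
    · apply ucol_eq_of_row
      show (if h : a ≠ a ∧ a ≠ b then k.1 (e ⟨a, h⟩) else if a = a then eu j else eu l) = eu j
      rw [dif_neg (fun h => h.1 rfl), if_pos rfl]
    · apply ucol_eq_of_row
      show (if h : b ≠ a ∧ b ≠ b then k.1 (e ⟨b, h⟩) else if b = a then eu j else eu l) = eu l
      rw [dif_neg (fun h => h.2 rfl), if_neg (fun h => hab h.symm)]⟩
  left_inv x := by
    apply Subtype.ext
    apply Subtype.ext
    funext i
    show (if h : i ≠ a ∧ i ≠ b then x.1.1 (e.symm (e ⟨i, h⟩)).1
      else if i = a then eu j else eu l) = x.1.1 i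
    by_cases h : i ≠ a ∧ i ≠ b
    · rw [dif_pos h, Equiv.symm_apply_apply]
    · rw [dif_neg h]
      by_cases hia : i = a
      · rw [if_pos hia, hia, row_eq_eu a ha x.1, x.2.1]
      · rw [if_neg hia]
        have hib : i = b := by
          by_contra hib
          exact h ⟨hia, hib⟩
        rw [hib, row_eq_eu b hb x.1, x.2.2]
  right_inv k := by
    apply Subtype.ext
    funext t
    show (if h : (e.symm t).1 ≠ a ∧ (e.symm t).1 ≠ b then k.1 (e ⟨(e.symm t).1, h⟩)
      else if (e.symm t).1 = a then eu j else eu l) = k.1 t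
    rw [dif_pos (e.symm t).2]
    have h1 : (⟨(e.symm t).1, (e.symm t).2⟩ : {i : Fin m // i ≠ a ∧ i ≠ b}) = e.symm t := rfl
    rw [h1, Equiv.apply_symm_apply]

/-- the joint counts of the unit columns of two unit rows -/
noncomputable def cnt {a b : Fin m} (ha : r a = 1) (hb : r b = 1) (j l : Fin n) : ℝ :=
  ((univ.filter (fun x : CT m n r c => ucol a ha x = j ∧ ucol b hb x = l)).card : ℝ)

/-- **The joint counts of the unit columns are the counts of the tables on the remaining
rows.** -/
theorem cnt_eq_Hcount {a b : Fin m} (hab : a ≠ b) (ha : r a = 1) (hb : r b = 1) {q : ℕ}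
    (e : {i : Fin m // i ≠ a ∧ i ≠ b} ≃ Fin q) (j l : Fin n) :
    cnt (c := c) ha hb j l = Hcount (fun t => r (e.symm t).1) c j l := by
  classical
  unfold cnt Hcount
  congr 1
  rw [← Fintype.card_subtype, ← Nat.card_eq_fintype_card]
  exact Nat.card_congr (cntEquiv hab ha hb e j l)

/-- **Negative correlation of two unit rows given the other rows**, from the rank-one bound
for the counts. -/
theorem negCorr (hncq : NCq) {a b : Fin m} (hab : a ≠ b) (ha : r a = 1) (hb : r b = 1)
    (σ : (Fin n → ℕ) → ℝ) (h0 : ∑ x : CT m n r c, σ (x.1 a) = 0) :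
    ∑ x : CT m n r c, σ (x.1 a) * σ (x.1 b) ≤ 0 := by
  classical
  set e := Fintype.equivFin {i : Fin m // i ≠ a ∧ i ≠ b} with he
  set s : Fin n → ℝ := fun j => σ (eu j) with hs
  set H : Fin n → Fin n → ℝ := fun j l => Hcount (fun t => r (e.symm t).1) c j l with hH
  have hHc : ∀ j l, cnt (c := c) ha hb j l = H j l := fun j l => cnt_eq_Hcount hab ha hb e j l
  have e1 : ∑ x : CT m n r c, σ (x.1 a) = ∑ j, ∑ l, s j * H j l := by
    have h := NegCorrAlg.sum_pair (fun x : CT m n r c => ucol a ha x)
      (fun x : CT m n r c => ucol b hb x) (fun j _ => s j)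
    have h' : ∑ x : CT m n r c, σ (x.1 a) = ∑ x : CT m n r c, s (ucol a ha x) :=
      Finset.sum_congr rfl (fun x _ => congrArg σ (row_eq_eu a ha x))
    rw [h', h]
    exact Finset.sum_congr rfl (fun j _ => Finset.sum_congr rfl
      (fun l _ => congrArg (fun z => s j * z) (hHc j l)))
  have e2 : ∑ x : CT m n r c, σ (x.1 a) * σ (x.1 b) = ∑ j, ∑ l, s j * s l * H j l := by
    have h := NegCorrAlg.sum_pair (fun x : CT m n r c => ucol a ha x)
      (fun x : CT m n r c => ucol b hb x) (fun j l => s j * s l)
    have h' : ∑ x : CT m n r c, σ (x.1 a) * σ (x.1 b)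
        = ∑ x : CT m n r c, s (ucol a ha x) * s (ucol b hb x) :=
      Finset.sum_congr rfl (fun x _ => congrArg₂ (fun u v => σ u * σ v)
        (row_eq_eu a ha x) (row_eq_eu b hb x))
    rw [h', h]
    exact Finset.sum_congr rfl (fun j _ => Finset.sum_congr rfl
      (fun l _ => congrArg (fun z => s j * s l * z) (hHc j l)))
  have hnc := hncq _ n (fun t => r (e.symm t).1) c s
  rw [e2]
  rw [e1] at h0
  have hT : 0 ≤ ∑ j, ∑ l, H j l :=
    Finset.sum_nonneg (fun j _ => Finset.sum_nonneg (fun l _ => Hcount_nonneg _ c j l))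
  have hnc' : (∑ j, ∑ l, s j * s l * H j l) * (∑ j, ∑ l, H j l) ≤ 0 := by
    have h := hnc
    rw [show (∑ j, ∑ l, s j * Hcount (fun t => r (e.symm t).1) c j l) = 0 from h0] at h
    have h5 : (0 : ℝ) ^ 2 = 0 := by norm_num
    rw [h5] at h
    exact h
  rcases hT.eq_or_lt with hT0 | hTpos
  · -- all counts vanish
    have hz : ∀ j l, H j l = 0 := by
      intro j l
      have hj := (Finset.sum_eq_zero_iff_of_nonneg
        (fun j _ => Finset.sum_nonneg (fun l _ => Hcount_nonneg _ c j l))).mp hT0.symm j
        (Finset.mem_univ j)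
      exact (Finset.sum_eq_zero_iff_of_nonneg (fun l _ => Hcount_nonneg _ c j l)).mp hj l
        (Finset.mem_univ l)
    apply le_of_eq
    refine Finset.sum_eq_zero (fun j _ => Finset.sum_eq_zero (fun l _ => ?_))
    rw [hz j l, mul_zero]
  · by_contra hcon
    push Not at hcon
    have := mul_pos hcon hTpos
    linarith

/-- exchange of the rows `a` and `b` -/
def swapRows {a b : Fin m} (h : r a = r b) : CT m n r c ≃ CT m n r c where
  toFun x := ⟨fun i => x.1 (Equiv.swap a b i),
    fun i => by
      rw [x.2.1]
      rw [Equiv.swap_apply_def]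
      split_ifs with h1 h2
      · rw [h1, h]
      · rw [h2, h]
      · rfl,
    fun j => by
      rw [Equiv.sum_comp (Equiv.swap a b) (fun i => x.1 i j)]
      exact x.2.2 j⟩
  invFun x := ⟨fun i => x.1 (Equiv.swap a b i),
    fun i => by
      rw [x.2.1]
      rw [Equiv.swap_apply_def]
      split_ifs with h1 h2
      · rw [h1, h]
      · rw [h2, h]
      · rfl,
    fun j => by
      rw [Equiv.sum_comp (Equiv.swap a b) (fun i => x.1 i j)]
      exact x.2.2 j⟩
  left_inv x := by
    apply Subtype.ext
    funext i
    simp only [Equiv.swap_apply_self]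
  right_inv x := by
    apply Subtype.ext
    funext i
    simp only [Equiv.swap_apply_self]

theorem swapRows_val {a b : Fin m} (h : r a = r b) (x : CT m n r c) (i : Fin m) :
    (swapRows h x).1 i = x.1 (Equiv.swap a b i) := rfl

/-- The quadratic form of the global average. -/
theorem ip_R_univ (g : CT m n r c → ℝ) :
    ip g (R univ g) = (∑ x, g x) ^ 2 / (Fintype.card (CT m n r c) : ℝ) := by
  unfold ip
  rw [Finset.sum_congr rfl (fun x _ => by rw [R_univ_apply]), ← Finset.sum_mul]
  ring

/-- If all rows outside `p` have sum zero, resampling `p` is the global average. -/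
theorem R_eq_univ_of_zero (a : Fin m) (ha : r a = 0) (p : Finset (Fin m))
    (hp : ∀ i, i ∉ p → i = a) :
    (R p : (CT m n r c → ℝ) →ₗ[ℝ] (CT m n r c → ℝ)) = R univ := by
  unfold R
  apply cexp_congr_ker
  intro x y
  rw [mask_eq_iff, mask_eq_iff]
  constructor
  · intro _ i hi
    exact absurd (Finset.mem_univ i) hi
  · intro _ i hi
    rw [hp i hi]
    funext j
    have hx := entry_le x a j
    have hy := entry_le y a j
    rw [ha] at hx hy
    omega

/-- Resampling all rows but `a` is the conditional expectation given row `a`. -/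
theorem R_eq_cexp_row (a : Fin m) (p : Finset (Fin m)) (ha : a ∉ p)
    (hp : ∀ i, i ∉ p → i = a) :
    (R p : (CT m n r c → ℝ) →ₗ[ℝ] (CT m n r c → ℝ)) = cexp (fun x : CT m n r c => x.1 a) := by
  unfold R
  apply cexp_congr_ker
  intro x y
  rw [mask_eq_iff]
  constructor
  · intro h
    exact h a ha
  · intro h i hi
    rw [hp i hi]
    exact h

/-- **The block triple for two rows with sum at most one.**  For `m × n` tables and two
distinct rows `a`, `b` with sum at most one (the other rows and the column sums arbitrary):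
with `pa` the set of all rows but `b` and `pb` the set of all rows but `a`, the conditional
expectations given row `b`, given row `a` and given the rows other than `a`, `b` add up to
at most twice the identity plus the global average.  (Assuming the rank-one bound `NCq`.) -/
theorem block_triple (hncq : NCq) {a b : Fin m} (hab : a ≠ b) (ha : r a ≤ 1) (hb : r b ≤ 1)
    (pa pb : Finset (Fin m)) (hpa : ∀ i, i ∉ pa ↔ i = b) (hpb : ∀ i, i ∉ pb ↔ i = a)
    (g : CT m n r c → ℝ) :
    ip g (R pa g) + ip g (R pb g) + ip g (R ({a, b} : Finset (Fin m)) g)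
      ≤ 2 * ip g g + ip g (R univ g) := by
  classical
  have hle : ∀ p : Finset (Fin m), ip g (R p g) ≤ ip g g := fun p => ip_cexp_le _ g
  by_cases ha0 : r a = 0
  · have e : (R pb : (CT m n r c → ℝ) →ₗ[ℝ] (CT m n r c → ℝ)) = R univ :=
      R_eq_univ_of_zero a ha0 _ (fun i hi => (hpb i).mp hi)
    rw [e]
    have := hle pa
    have := hle {a, b}
    linarith
  by_cases hb0 : r b = 0
  · have e : (R pa : (CT m n r c → ℝ) →ₗ[ℝ] (CT m n r c → ℝ)) = R univ :=
      R_eq_univ_of_zero b hb0 _ (fun i hi => (hpa i).mp hi)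
    rw [e]
    have := hle pb
    have := hle {a, b}
    linarith
  have ha1 : r a = 1 := by omega
  have hb1 : r b = 1 := by omega
  have hrab : r a = r b := by rw [ha1, hb1]
  have key := H85.threeProj_of_swap
    (fun x : CT m n r c => mask ({a, b} : Finset (Fin m)) x.1)
    (fun x : CT m n r c => x.1 a) (fun x : CT m n r c => x.1 b) (swapRows hrab)
    (by
      intro x
      rw [mask_eq_iff]
      intro i hi
      rw [swapRows_val]
      have h1 : i ≠ a := fun h => hi (by rw [h]; exact Finset.mem_insert_self a {b})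
      have h2 : i ≠ b := fun h => hi (by
        rw [h]
        exact Finset.mem_insert_of_mem (Finset.mem_singleton_self b))
      rw [Equiv.swap_apply_of_ne_of_ne h1 h2])
    (by
      intro x
      show (swapRows hrab x).1 a = x.1 b
      rw [swapRows_val, Equiv.swap_apply_left])
    (by
      intro x
      show (swapRows hrab x).1 b = x.1 a
      rw [swapRows_val, Equiv.swap_apply_right])
    (fun σ h0 => negCorr hncq hab ha1 hb1 σ h0) g
  have e1 : (R pa : (CT m n r c → ℝ) →ₗ[ℝ] (CT m n r c → ℝ))
      = cexp (fun x : CT m n r c => x.1 b) :=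
    R_eq_cexp_row b _ ((hpa b).mpr rfl) (fun i hi => (hpa i).mp hi)
  have e2 : (R pb : (CT m n r c → ℝ) →ₗ[ℝ] (CT m n r c → ℝ))
      = cexp (fun x : CT m n r c => x.1 a) :=
    R_eq_cexp_row a _ ((hpb a).mpr rfl) (fun i hi => (hpb i).mp hi)
  have e3 : (R ({a, b} : Finset (Fin m)) : (CT m n r c → ℝ) →ₗ[ℝ] (CT m n r c → ℝ))
      = cexp (fun x : CT m n r c => mask ({a, b} : Finset (Fin m)) x.1) := rfl
  rw [e1, e2, e3, ip_R_univ]
  linarith

/-- The block triple with the row sets written as `univ.erase`. -/
theorem block_triple_erase (hncq : NCq) {a b : Fin m} (hab : a ≠ b) (ha : r a ≤ 1)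
    (hb : r b ≤ 1) (g : CT m n r c → ℝ) :
    ip g (R (univ.erase b) g) + ip g (R (univ.erase a) g)
        + ip g (R ({a, b} : Finset (Fin m)) g)
      ≤ 2 * ip g g + ip g (R univ g) := by
  apply block_triple hncq hab ha hb
  · intro i
    rw [Finset.mem_erase]
    constructor
    · intro h
      by_contra hne
      exact h ⟨hne, Finset.mem_univ i⟩
    · intro h hcon
      exact hcon.1 h
  · intro i
    rw [Finset.mem_erase]
    constructor
    · intro h
      by_contra hne
      exact h ⟨hne, Finset.mem_univ i⟩
    · intro h hcon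
      exact hcon.1 h

end tables

end UnitRows

end Vale.Agent.Lib.P328.RP
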